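import Vale.Agent.P265.MathlibUsed

open Set Manifold
open scoped ContDiff Topology

namespace Vale.Agent.P265.Loc

section Calculus

variable {E : Type*} [NormedAddCommGroup E] [NormedSpace ℝ E] {B : Type*} [TopologicalSpace B]
  (I : ModelWithCorners ℝ E B) {X : Type*} [TopologicalSpace X] [ChartedSpace B X]

/-- The set of critical points of a function on a manifold. -/
def Crit (f : X → ℝ) : Set X := {x | mfderiv I 𝓘(ℝ, ℝ) f x = 0}

/-- The Hessian of `f` at `x`, computed in the preferred chart at `x`, is nondegenerate. -/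
def HessNondeg (f : X → ℝ) (x : X) : Prop :=
  ∀ v, (∀ w, fderiv ℝ (fun y => fderiv ℝ (f ∘ (extChartAt I x).symm) y w) (extChartAt I x x) v = 0)
    → v = 0

/-- Morse functions: smooth, with nondegenerate critical points. -/
def IsMorse (f : X → ℝ) : Prop :=
  ContMDiff I 𝓘(ℝ, ℝ) ∞ f ∧ ∀ x ∈ Crit I f, HessNondeg I f x

end Calculus

section StableMorse

variable (V : Type*) [NormedAddCommGroup V] [NormedSpace ℝ V]
  (W : Type*) [TopologicalSpace W] [ChartedSpace V W]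

/-- The minimal number of critical points of a Morse function `F` on `W × Z` which, if `Z ≠ 0`,
equals a nondegenerate quadratic form `Q(z)` for `|z| ≥ R`. -/
noncomputable def MorseNumberAt (Z : Type*) [NormedAddCommGroup Z] [NormedSpace ℝ Z] : ℕ∞ :=
  ⨅ (F : W × Z → ℝ) (_ : IsMorse (𝓘(ℝ, V).prod 𝓘(ℝ, Z)) F) (_ : Nontrivial Z →
      ∃ (Q : QuadraticForm ℝ Z) (R : ℝ), (∀ v, (∀ w, QuadraticMap.polar Q v w = 0) → v = 0) ∧
        0 < R ∧ ∀ x z, R ≤ ‖z‖ → F (x, z) = Q z),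
    (Crit (𝓘(ℝ, V).prod 𝓘(ℝ, Z)) F).encard

/-- The stable Morse number of `W`. -/
noncomputable def StableMorseNumber : ℕ∞ := ⨅ k : ℕ, MorseNumberAt V W (EuclideanSpace ℝ (Fin k))

end StableMorse

section Symplectic

/-- A field of real functions of two tangent vectors on `M`. -/
abbrev FormField (V : Type*) [NormedAddCommGroup V] [NormedSpace ℝ V] (M : Type*)
    [TopologicalSpace M] [ChartedSpace V M] : Type _ :=
  ∀ x : M, TangentSpace 𝓘(ℝ, V) x → TangentSpace 𝓘(ℝ, V) x → ℝ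

variable {V : Type*} [NormedAddCommGroup V] [NormedSpace ℝ V] {M : Type*} [TopologicalSpace M]
  [ChartedSpace V M]

/-- The pullback of `om` by `P : V → M`, evaluated at the point `y` on the vectors `v`, `w`. -/
noncomputable def pullback (om : FormField V M) (P : V → M) (v w y : V) : ℝ :=
  om (P y) (mfderiv 𝓘(ℝ, V) 𝓘(ℝ, V) P y v) (mfderiv 𝓘(ℝ, V) 𝓘(ℝ, V) P y w)

/-- `om` is a symplectic form: bilinear, alternating, nondegenerate, smooth and closed. -/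
structure IsSymplectic (om : FormField V M) : Prop where
  bilin : ∀ x, IsBilinearMap ℝ (om x)
  alt : ∀ x v, om x v v = 0
  nondeg : ∀ x v, (∀ w, om x v w = 0) → v = 0
  smooth : ∀ x₀ v w, ContDiffOn ℝ ∞ (pullback om (extChartAt 𝓘(ℝ, V) x₀).symm v w)
    (extChartAt 𝓘(ℝ, V) x₀).target
  closed : ∀ x₀, ∀ y ∈ (extChartAt 𝓘(ℝ, V) x₀).target, ∀ u v w,
    fderiv ℝ (pullback om (extChartAt 𝓘(ℝ, V) x₀).symm v w) y u +
      fderiv ℝ (pullback om (extChartAt 𝓘(ℝ, V) x₀).symm w u) y v +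
      fderiv ℝ (pullback om (extChartAt 𝓘(ℝ, V) x₀).symm u v) y w = 0

/-- `φ` is the flow of the smooth Hamiltonian `H`, `1`-periodic in time: `φ` is smooth, `φ⁰ = id`
and `om(∂ₜφᵗ(x), ·) = dH_t` at `φᵗ(x)`. -/
structure IsHamiltonianFlow (om : FormField V M) (H : ℝ → M → ℝ) (φ : ℝ → M → M) : Prop where
  smooth' : ContMDiff (𝓘(ℝ, ℝ).prod 𝓘(ℝ, V)) 𝓘(ℝ, ℝ) ∞ (fun z : ℝ × M => H z.1 z.2)
  periodic : ∀ t x, H (t + 1) x = H t x
  smooth : ContMDiff (𝓘(ℝ, ℝ).prod 𝓘(ℝ, V)) 𝓘(ℝ, V) ∞ (fun z : ℝ × M => φ z.1 z.2)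
  zero : ∀ x, φ 0 x = x
  hamilton : ∀ t x w, om (φ t x) (mfderiv 𝓘(ℝ, ℝ) 𝓘(ℝ, V) (fun s => φ s x) t (1 : ℝ)) w =
    mfderiv 𝓘(ℝ, V) 𝓘(ℝ, ℝ) (H t) (φ t x) w

variable (V) in
/-- All fixed points of `g : M → M` are nondegenerate: `1` is not an eigenvalue of `d_x g`. -/
def NondegFixedPoints (g : M → M) : Prop :=
  ∀ x, g x = x → ∀ v : V, mfderiv 𝓘(ℝ, V) 𝓘(ℝ, V) g x v = v → v = 0

/-- `Fix₀`: the fixed points `x` of `φ¹` whose loop `t ↦ φᵗ(x)`, `0 ≤ t ≤ 1`, is contractible. -/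
def Fix0 {M : Type*} [TopologicalSpace M] (φ : ℝ → M → M) : Set M :=
  {x | φ 1 x = x ∧ ∃ γ : Path x x, (∀ t, γ t = φ t x) ∧ γ.Homotopic (Path.refl x)}

/-- The Poisson bracket of `K` and `h` vanishes at `x`: the Hamiltonian vector `X` of `h` at `x`
satisfies `dK(X) = 0`. -/
def PoissonZero (om : FormField V M) (K h : M → ℝ) (x : M) : Prop :=
  ∀ X, (∀ w, om x X w = mfderiv 𝓘(ℝ, V) 𝓘(ℝ, ℝ) h x w) → mfderiv 𝓘(ℝ, V) 𝓘(ℝ, ℝ) K x X = 0

/-- `D ⊆ V` is open, convex and invariant under the group `Λ` of translations, with relatively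
compact quotient, and `p` embeds `D / Λ` into `M` so that `p^* om` is the constant nondegenerate
form `b`. -/
structure IsFlatChart (om : FormField V M) (b : V → V → ℝ) (D : Set V)
    (Λ : AddSubgroup V) (p : V → M) : Prop where
  isOpen : IsOpen D
  convex : Convex ℝ D
  translate : ∀ z ∈ D, ∀ l ∈ Λ, z + l ∈ D
  cocompact : ∃ P, IsCompact P ∧ ∀ z ∈ D, ∃ l ∈ Λ, z + l ∈ P
  smooth : ContMDiffOn 𝓘(ℝ, V) 𝓘(ℝ, V) ∞ p D
  fiber : ∀ z ∈ D, ∀ w ∈ D, p z = p w ↔ w - z ∈ Λ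
  flat : ∀ z ∈ D, ∀ u v, pullback om p u v z = b u v
  nondeg : ∀ u, (∀ v, b u v = 0) → u = 0

end Symplectic

end Vale.Agent.P265.Loc
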